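import Mathlib

open Polynomial

namespace Vale.Agent.Results.P123.ConvexLemniscate

/-- The numerical range of `A`. In Mathlib `inner ℂ x y` is conjugate linear in `x`, so
`inner ℂ x (A x)` is the number written `⟨A x, x⟩` with an inner product linear in its first slot. -/
def numericalRange {H : Type*} [NormedAddCommGroup H] [InnerProductSpace ℂ H]
    (A : H →L[ℂ] H) : Set ℂ :=
  {z : ℂ | ∃ x : H, ‖x‖ = 1 ∧ z = inner ℂ x (A x)}

/-! ### Tangent inequality on the boundary of a convex sublevel set -/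

lemma tangent_ineq (p : ℂ[X]) (M : ℝ) (hM : 0 < M)
    (hconv : Convex ℝ {z : ℂ | ‖p.eval z‖ ≤ M}) {z a : ℂ}
    (hz : ‖p.eval z‖ = M) (ha : ‖p.eval a‖ ≤ M) :
    0 ≤ ((z - a) * p.derivative.eval z / p.eval z).re := by
  have hpz : p.eval z ≠ 0 := by
    intro h
    rw [h, norm_zero] at hz
    exact hM.ne hz
  -- the curve t ↦ p (z + t (a - z))
  let u : ℝ → ℂ := fun t => p.eval (z + (t : ℂ) * (a - z))
  have hu : HasDerivAt u (p.derivative.eval z * (a - z)) 0 := by
    have h1 : HasDerivAt (fun w : ℂ => z + w * (a - z)) (a - z) ((0 : ℝ) : ℂ) := by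
      simpa using ((hasDerivAt_id ((0 : ℝ) : ℂ)).mul_const (a - z)).const_add z
    have h2 : HasDerivAt (fun w : ℂ => p.eval w) (p.derivative.eval z)
        (z + ((0 : ℝ) : ℂ) * (a - z)) := by
      simpa using p.hasDerivAt z
    have h3 := h2.comp ((0 : ℝ) : ℂ) h1
    exact h3.comp_ofReal
  have hn : HasDerivAt (fun t => ‖u t‖ ^ 2)
      (2 * (inner ℝ (u 0) (p.derivative.eval z * (a - z)))) 0 := hu.norm_sq
  have hu0 : u 0 = p.eval z := by simp [u]
  -- on [0,1] the curve stays in the sublevel set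
  have hle : ∀ t : ℝ, 0 ≤ t → t ≤ 1 → ‖u t‖ ^ 2 ≤ ‖u 0‖ ^ 2 := by
    intro t ht0 ht1
    have hmem : z + (t : ℂ) * (a - z) ∈ {z : ℂ | ‖p.eval z‖ ≤ M} := by
      have := hconv (show z ∈ {z : ℂ | ‖p.eval z‖ ≤ M} from hz.le)
        (show a ∈ {z : ℂ | ‖p.eval z‖ ≤ M} from ha)
        (show 0 ≤ 1 - t by linarith) ht0 (by ring)
      convert this using 1
      simp only [Complex.real_smul]
      push_cast
      ring
    have h1 : ‖u t‖ ≤ M := hmem
    have h2 : ‖u 0‖ = M := by rw [hu0, hz]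
    rw [h2]
    gcongr
  -- the derivative at 0 is nonpositive
  have hderiv : 2 * (inner ℝ (u 0) (p.derivative.eval z * (a - z))) ≤ (0 : ℝ) := by
    by_contra hcon
    rw [not_le] at hcon
    have hslope := hn.tendsto_slope_zero_right
    have hev : ∀ᶠ t : ℝ in nhdsWithin 0 (Set.Ioi 0),
        t⁻¹ • (‖u (0 + t)‖ ^ 2 - ‖u 0‖ ^ 2) ≤ 0 := by
      have : Set.Ioo (0 : ℝ) 1 ∈ nhdsWithin (0 : ℝ) (Set.Ioi 0) :=
        Ioo_mem_nhdsGT (by norm_num)
      filter_upwards [this] with t ht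
      have h0 := hle t ht.1.le ht.2.le
      have : t⁻¹ * (‖u (0 + t)‖ ^ 2 - ‖u 0‖ ^ 2) ≤ 0 := by
        apply mul_nonpos_of_nonneg_of_nonpos (inv_nonneg.mpr ht.1.le)
        simpa using h0
      simpa using this
    have := le_of_tendsto hslope hev
    linarith
  -- translate into the claimed inequality
  have hinner : (inner ℝ (u 0) (p.derivative.eval z * (a - z)) : ℝ)
      = ((starRingEnd ℂ) (p.eval z) * (p.derivative.eval z * (a - z))).re := by
    rw [hu0, Complex.inner, mul_comm]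
  have hns : 0 < Complex.normSq (p.eval z) := Complex.normSq_pos.mpr hpz
  have hquot : ((z - a) * p.derivative.eval z / p.eval z).re
      = -((starRingEnd ℂ) (p.eval z) * (p.derivative.eval z * (a - z))).re
          / Complex.normSq (p.eval z) := by
    generalize p.eval z = P at *
    generalize p.derivative.eval z = D at *
    simp only [Complex.div_re, Complex.mul_re, Complex.mul_im, Complex.sub_re, Complex.sub_im,
      Complex.conj_re, Complex.conj_im]
    field_simp
    ring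
  rw [hquot]
  apply div_nonneg _ hns.le
  rw [hinner] at hderiv
  linarith

/-! ### Behaviour near infinity -/

lemma large_radius (p : ℂ[X]) (a : ℂ) (hdeg : 0 < p.natDegree) :
    ∃ R₀ : ℝ, ∀ z : ℂ, R₀ ≤ ‖z‖ →
      p.eval z ≠ 0 ∧ 0 ≤ ((z - a) * p.derivative.eval z / p.eval z).re := by
  classical
  have hp0 : p ≠ 0 := by
    rintro rfl
    simp at hdeg
  refine ⟨∑ ρ ∈ p.roots.toFinset, (2 * ‖ρ‖ + ‖a‖) + ‖a‖ + 1, fun z hz => ?_⟩
  have hbig : ∀ ρ ∈ p.roots, ‖ρ - a‖ ≤ ‖z - ρ‖ ∧ 1 ≤ ‖z - ρ‖ := by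
    intro ρ hρ
    have h1 : 2 * ‖ρ‖ + ‖a‖ ≤ ∑ ρ ∈ p.roots.toFinset, (2 * ‖ρ‖ + ‖a‖) :=
      Finset.single_le_sum (f := fun ρ : ℂ => 2 * ‖ρ‖ + ‖a‖)
        (fun _ _ => by positivity) (Multiset.mem_toFinset.mpr hρ)
    have h2 : ‖z‖ - ‖ρ‖ ≤ ‖z - ρ‖ := norm_sub_norm_le z ρ
    have h3 : ‖ρ - a‖ ≤ ‖ρ‖ + ‖a‖ := norm_sub_le ρ a
    have h4 : 0 ≤ ‖a‖ := norm_nonneg a
    have h5 : 0 ≤ ‖ρ‖ := norm_nonneg ρ
    constructor <;> linarith
  have hne : p.eval z ≠ 0 := by
    intro h0
    have hmem : z ∈ p.roots := (mem_roots hp0).mpr h0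
    have := (hbig z hmem).2
    simp at this
    linarith
  refine ⟨hne, ?_⟩
  have hsplit := IsAlgClosed.splits p
  have hform : (z - a) * p.derivative.eval z / p.eval z
      = (p.roots.map fun ρ => (z - a) * (1 / (z - ρ))).sum := by
    rw [mul_div_assoc, hsplit.eval_derivative_div_eval_of_ne_zero hne, Multiset.sum_map_mul_left]
  rw [hform]
  have hre : ((p.roots.map fun ρ => (z - a) * (1 / (z - ρ))).sum).re
      = (p.roots.map fun ρ => ((z - a) * (1 / (z - ρ))).re).sum := by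
    have := map_multiset_sum Complex.reAddGroupHom (p.roots.map fun ρ => (z - a) * (1 / (z - ρ)))
    simpa [Multiset.map_map] using this
  rw [hre]
  apply Multiset.sum_nonneg
  intro t ht
  obtain ⟨ρ, hρ, rfl⟩ := Multiset.mem_map.mp ht
  obtain ⟨h1, h2⟩ := hbig ρ hρ
  have hne' : z - ρ ≠ 0 := by
    intro h
    rw [h, norm_zero] at h2
    linarith
  have hid : (z - a) * (1 / (z - ρ)) = 1 + (ρ - a) / (z - ρ) := by
    field_simp
    ring
  rw [hid, Complex.add_re, Complex.one_re]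
  have hb : ‖(ρ - a) / (z - ρ)‖ ≤ 1 := by
    rw [norm_div]
    exact div_le_one_of_le₀ h1 (norm_nonneg _)
  have := Complex.abs_re_le_norm ((ρ - a) / (z - ρ))
  have := abs_le.mp (this.trans hb)
  linarith [this.1]

/-! ### The exterior inequality, by the maximum principle -/

lemma exterior_ineq (p : ℂ[X]) (M : ℝ) (hM : 0 < M)
    (hconv : Convex ℝ {z : ℂ | ‖p.eval z‖ ≤ M}) (hdeg : 0 < p.natDegree) {r a : ℂ}
    (hr : M < ‖p.eval r‖) (ha : ‖p.eval a‖ ≤ M) :
    0 ≤ ((r - a) * p.derivative.eval r / p.eval r).re := by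
  obtain ⟨R₀, hR₀⟩ := large_radius p a hdeg
  set R : ℝ := max R₀ ‖r‖ + 1 with hR
  let F : ℂ → ℂ := fun z => (z - a) * p.derivative.eval z / p.eval z
  let G : ℂ → ℂ := fun z => Complex.exp (-F z)
  let U : Set ℂ := {z | M < ‖p.eval z‖} ∩ Metric.ball 0 R
  have hcont : Continuous fun z : ℂ => ‖p.eval z‖ := (p.continuous).norm
  have hUopen : IsOpen U :=
    (isOpen_lt continuous_const hcont).inter Metric.isOpen_ball
  have hUbdd : Bornology.IsBounded U := Metric.isBounded_ball.subset Set.inter_subset_right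
  have hcl : closure U ⊆ {z | M ≤ ‖p.eval z‖} ∩ Metric.closedBall 0 R := by
    apply closure_minimal
    · rintro z ⟨h1, h2⟩
      exact ⟨le_of_lt (show M < ‖p.eval z‖ from h1), Metric.ball_subset_closedBall h2⟩
    · exact (isClosed_le continuous_const hcont).inter Metric.isClosed_closedBall
  have hne_of : ∀ z, M ≤ ‖p.eval z‖ → p.eval z ≠ 0 := by
    intro z hz h0
    rw [h0, norm_zero] at hz
    linarith
  have hdiffF : DifferentiableOn ℂ G (closure U) := by
    intro z hz
    have hz0 : p.eval z ≠ 0 := hne_of z (hcl hz).1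
    have h1 : DifferentiableAt ℂ (fun z : ℂ => (z - a) * p.derivative.eval z) z :=
      (differentiableAt_id.sub_const a).mul (p.derivative.differentiable z)
    have h2 : DifferentiableAt ℂ F z := h1.div (p.differentiable z) hz0
    exact (h2.neg.cexp).differentiableWithinAt
  have hdc : DiffContOnCl ℂ G U := hdiffF.diffContOnCl
  have hrU : r ∈ U := by
    refine ⟨hr, ?_⟩
    rw [Metric.mem_ball, dist_zero_right, hR]
    have := le_max_right R₀ ‖r‖
    linarith
  have hfr : ∀ z ∈ frontier U, ‖G z‖ ≤ 1 := by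
    intro z hz
    rw [hUopen.frontier_eq] at hz
    obtain ⟨hz1, hz2⟩ := hz
    obtain ⟨hz3, hz4⟩ := hcl hz1
    have hFre : 0 ≤ (F z).re := by
      by_cases hlt : M < ‖p.eval z‖
      · have hzball : ¬ z ∈ Metric.ball (0 : ℂ) R := fun hb => hz2 ⟨hlt, hb⟩
        rw [Metric.mem_ball, dist_zero_right, not_lt] at hzball
        have : R₀ ≤ ‖z‖ := by
          have := le_max_left R₀ ‖r‖
          linarith
        exact (hR₀ z this).2
      · have heq : ‖p.eval z‖ = M := le_antisymm (not_lt.mp hlt) hz3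
        exact tangent_ineq p M hM hconv heq ha
    simp only [G, Complex.norm_exp, Complex.neg_re]
    apply Real.exp_le_one_iff.mpr
    linarith
  have hbound := Complex.norm_le_of_forall_mem_frontier_norm_le hUbdd hdc hfr
    (subset_closure hrU)
  simp only [G, Complex.norm_exp, Complex.neg_re] at hbound
  have := Real.exp_le_one_iff.mp hbound
  linarith

/-! ### Partial fractions -/

lemma exists_partial_fractions (q : ℂ[X]) (hq : 0 < q.natDegree)
    (hsimple : ∀ r, q.eval r = 0 → q.derivative.eval r ≠ 0) :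
    ∃ (s : Finset ℂ) (L : ℂ → ℂ[X]), (∀ r ∈ s, q.eval r = 0) ∧ (∑ r ∈ s, L r = 1) ∧
      ∀ r ∈ s, C (q.derivative.eval r) * ((X - C r) * L r) = q := by
  classical
  have hq0 : q ≠ 0 := by
    rintro rfl
    simp at hq
  have hsplit := IsAlgClosed.splits q
  have hnd : q.roots.Nodup := by
    rw [Multiset.nodup_iff_count_le_one]
    intro t
    rw [count_roots]
    by_contra hcon
    rw [not_le] at hcon
    obtain ⟨h1, h2⟩ := (one_lt_rootMultiplicity_iff_isRoot hq0).mp hcon
    exact hsimple t h1 h2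
  set s : Finset ℂ := q.roots.toFinset with hs
  have hsval : s.val = q.roots := by
    rw [hs, Multiset.toFinset_val, hnd.dedup]
  have hprod : q = C q.leadingCoeff * Lagrange.nodal s id := by
    conv_lhs => rw [hsplit.eq_prod_roots]
    congr 1
    rw [Lagrange.nodal, Finset.prod, hsval]
    rfl
  have hlc : q.leadingCoeff ≠ 0 := leadingCoeff_ne_zero.mpr hq0
  have hne : s.Nonempty := by
    have hdeg : q.degree ≠ 0 := (natDegree_pos_iff_degree_pos.mp hq).ne'
    obtain ⟨z, hz⟩ := IsAlgClosed.exists_root q hdeg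
    exact ⟨z, Multiset.mem_toFinset.mpr ((mem_roots hq0).mpr hz)⟩
  refine ⟨s, Lagrange.basis s id, ?_, Lagrange.sum_basis (Set.injOn_id _) hne, ?_⟩
  · intro r hr
    exact (mem_roots hq0).mp (Multiset.mem_toFinset.mp hr)
  · intro r hr
    have hrr : id r ∈ s := hr
    have hder : q.derivative.eval r
        = q.leadingCoeff * (Lagrange.nodal (s.erase r) id).eval r := by
      conv_lhs => rw [hprod]
      rw [derivative_C_mul, eval_mul, eval_C]
      congr 1
      exact Lagrange.eval_nodal_derivative_eval_node_eq (v := id) hr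
    have hnev : (Lagrange.nodal (s.erase r) id).eval r ≠ 0 := by
      apply Lagrange.eval_nodal_not_at_node
      intro i hi h
      exact (Finset.mem_erase.mp hi).1 h.symm
    rw [Lagrange.basis_eq_prod_sub_inv_mul_nodal_div hr, ← Lagrange.nodal_erase_eq_nodal_div hr,
      Lagrange.nodalWeight_eq_eval_nodal_erase_inv]
    conv_rhs => rw [hprod]
    rw [Lagrange.nodal_eq_mul_nodal_erase (v := id) hr, hder]
    simp only [id]
    have hc : C (q.leadingCoeff * eval r (Lagrange.nodal (s.erase r) id))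
        * C (eval r (Lagrange.nodal (s.erase r) id))⁻¹ = C q.leadingCoeff := by
      rw [← C_mul, mul_assoc, mul_inv_cancel₀ hnev, mul_one]
    calc _ = (C (q.leadingCoeff * eval r (Lagrange.nodal (s.erase r) id))
            * C (eval r (Lagrange.nodal (s.erase r) id))⁻¹)
            * ((X - C r) * Lagrange.nodal (s.erase r) id) := by ring
      _ = _ := by rw [hc]

/-! ### Operators -/

section Operators

variable {H : Type*} [NormedAddCommGroup H] [InnerProductSpace ℂ H]

lemma inner_self_mem (A : H →L[ℂ] H) {x : H} (hx : x ≠ 0) :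
    ∃ a ∈ numericalRange A, (inner ℂ x (A x) : ℂ) = ((‖x‖ : ℂ) ^ 2) * a := by
  have hn : (‖x‖ : ℂ) ≠ 0 := by
    simpa using hx
  refine ⟨inner ℂ (((‖x‖ : ℂ)⁻¹) • x) (A (((‖x‖ : ℂ)⁻¹) • x)),
    ⟨((‖x‖ : ℂ)⁻¹) • x, ?_, rfl⟩, ?_⟩
  · rw [norm_smul, norm_inv, Complex.norm_real, norm_norm]
    exact inv_mul_cancel₀ (norm_ne_zero_iff.mpr hx)
  · rw [map_smul, inner_smul_left, inner_smul_right]
    simp only [map_inv₀, Complex.conj_ofReal]
    field_simp

/-- The core computation: Pearcy's partial fraction argument. -/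
lemma key_ineq (A : H →L[ℂ] H) (p : ℂ[X]) (M : ℝ) (hM : 0 < M)
    (hW : ∀ z ∈ numericalRange A, ‖p.eval z‖ ≤ M)
    (hconv : Convex ℝ {z : ℂ | ‖p.eval z‖ ≤ M}) (hdeg : 0 < p.natDegree)
    (μ : ℂ) (hμ : M < ‖μ‖) (hsimple : ∀ r, p.eval r = μ → p.derivative.eval r ≠ 0) (x : H) :
    (((inner ℂ x ((aeval A p) x) : ℂ) - μ * (‖x‖ : ℂ) ^ 2) / μ).re ≤ 0 := by
  classical
  have hμ0 : μ ≠ 0 := by
    intro h
    rw [h, norm_zero] at hμ
    linarith
  set q : ℂ[X] := p - C μ with hq
  have hqdeg : 0 < q.natDegree := by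
    rw [hq, natDegree_sub_C]
    exact hdeg
  have hqder : q.derivative = p.derivative := by
    rw [hq, derivative_sub, derivative_C, sub_zero]
  have hqeval : ∀ r, q.eval r = p.eval r - μ := by
    intro r
    rw [hq, eval_sub, eval_C]
  obtain ⟨s, L, hroot, hsum, hid⟩ := exists_partial_fractions q hqdeg (by
    intro r hr
    rw [hqder]
    apply hsimple
    rw [hqeval] at hr
    exact sub_eq_zero.mp hr)
  have hpr : ∀ r ∈ s, p.eval r = μ := by
    intro r hr
    have := hroot r hr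
    rw [hqeval] at this
    exact sub_eq_zero.mp this
  -- the vectors `x_r`
  let E : ℂ → (H →L[ℂ] H) := fun r => aeval A (L r)
  have hEsum : ∑ r ∈ s, E r x = x := by
    have h1 : ∑ r ∈ s, E r = 1 := by
      simp only [E]
      rw [← map_sum, hsum, map_one]
    have h2 : (∑ r ∈ s, E r) x = ∑ r ∈ s, E r x := by
      simp
    rw [← h2, h1]
    rfl
  set y : H := (aeval A q) x with hy
  have hyform : y = (aeval A p) x - μ • x := by
    rw [hy, hq, map_sub, aeval_C]
    simp [Algebra.algebraMap_eq_smul_one]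
  have hyr : ∀ r ∈ s, y = (p.derivative.eval r) • (A (E r x) - r • E r x) := by
    intro r hr
    have h1 := congrArg (fun P => (aeval A P) x) (hid r hr)
    simp only [map_mul, aeval_C, map_sub, aeval_X] at h1
    rw [hy, ← h1, hqder]
    simp [Algebra.algebraMap_eq_smul_one, E]
  -- the sum formula
  have hinner : (inner ℂ x y : ℂ)
      = ∑ r ∈ s, (p.derivative.eval r) * ((inner ℂ (E r x) (A (E r x)) : ℂ)
          - r * (‖E r x‖ : ℂ) ^ 2) := by
    conv_lhs => rw [← hEsum]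
    rw [sum_inner]
    apply Finset.sum_congr rfl
    intro r hr
    conv_lhs => rw [hyr r hr]
    rw [inner_smul_right, inner_sub_right, inner_smul_right, inner_self_eq_norm_sq_to_K]
    rfl
  have hreeach : ∀ r ∈ s, (((p.derivative.eval r) * ((inner ℂ (E r x) (A (E r x)) : ℂ)
          - r * (‖E r x‖ : ℂ) ^ 2)) / μ).re ≤ 0 := by
    intro r hr
    by_cases hx0 : E r x = 0
    · simp [hx0]
    obtain ⟨a, ha, hae⟩ := inner_self_mem A hx0
    have hpa := hW a ha
    have hpr' : M < ‖p.eval r‖ := by rw [hpr r hr]; exact hμ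
    have hext := exterior_ineq p M hM hconv hdeg hpr' hpa
    rw [hpr r hr] at hext
    rw [hae]
    have hform : (p.derivative.eval r) * ((‖E r x‖ : ℂ) ^ 2 * a - r * (‖E r x‖ : ℂ) ^ 2) / μ
        = ((-(‖E r x‖ ^ 2) : ℝ) : ℂ) * ((r - a) * p.derivative.eval r / μ) := by
      push_cast
      field_simp
      ring
    rw [hform, Complex.re_ofReal_mul]
    exact mul_nonpos_of_nonpos_of_nonneg (by nlinarith [sq_nonneg ‖E r x‖]) hext
  have hfinal : ((inner ℂ x ((aeval A p) x) : ℂ) - μ * (‖x‖ : ℂ) ^ 2) = (inner ℂ x y : ℂ) := by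
    rw [hyform, inner_sub_right, inner_smul_right, inner_self_eq_norm_sq_to_K]
    rfl
  rw [hfinal, hinner, Finset.sum_div]
  rw [Complex.re_sum]
  exact Finset.sum_nonpos hreeach

/-- The case of a positive bound and a nonconstant polynomial: the numerical radius estimate. -/
lemma numerical_radius_pos (A : H →L[ℂ] H) (p : ℂ[X]) (M : ℝ) (hM : 0 < M)
    (hW : ∀ z ∈ numericalRange A, ‖p.eval z‖ ≤ M)
    (hconv : Convex ℝ {z : ℂ | ‖p.eval z‖ ≤ M}) (hdeg : 0 < p.natDegree)
    (x : H) (hx : ‖x‖ = 1) : ‖(inner ℂ x ((aeval A p) x) : ℂ)‖ ≤ M := by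
  classical
  by_contra hcon
  rw [not_le] at hcon
  set v : ℂ := inner ℂ x ((aeval A p) x) with hv
  have hvn : 0 < ‖v‖ := lt_trans hM hcon
  have hv0 : v ≠ 0 := norm_pos_iff.mp hvn
  set u : ℂ := v / (‖v‖ : ℂ) with hu
  have hvc : (‖v‖ : ℂ) ≠ 0 := by exact_mod_cast hvn.ne'
  have hun : ‖u‖ = 1 := by
    rw [hu, norm_div, Complex.norm_real, norm_norm, div_self hvn.ne']
  have hu0 : u ≠ 0 := by
    intro h
    rw [h, norm_zero] at hun
    exact zero_ne_one hun
  have hder0 : p.derivative ≠ 0 := by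
    intro h
    have := Polynomial.derivative_eq_zero.mp h
    omega
  -- choose a generic value on the ray through `v`
  let B : Finset ℂ := (p.derivative.roots.toFinset).image (fun r => p.eval r)
  let B' : Finset ℝ := B.image (fun w => (w / u).re)
  obtain ⟨s, hs, hsB⟩ := (Set.Ioo_infinite hcon).exists_notMem_finset B'
  set μ : ℂ := (s : ℂ) * u with hμdef
  have hs0 : 0 < s := lt_trans hM hs.1
  have hμn : ‖μ‖ = s := by
    rw [hμdef, norm_mul, hun, mul_one, Complex.norm_real, Real.norm_of_nonneg hs0.le]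
  have hμ0 : μ ≠ 0 := by
    rw [hμdef]
    exact mul_ne_zero (by exact_mod_cast hs0.ne') hu0
  have hsimple : ∀ r, p.eval r = μ → p.derivative.eval r ≠ 0 := by
    intro r hr hder
    apply hsB
    refine Finset.mem_image.mpr ⟨μ, Finset.mem_image.mpr ⟨r, ?_, hr⟩, ?_⟩
    · exact Multiset.mem_toFinset.mpr ((mem_roots hder0).mpr hder)
    · simp [hμdef, hu0]
  have hkey := key_ineq A p M hM hW hconv hdeg μ (by rw [hμn]; exact hs.1) hsimple x
  rw [hx] at hkey
  have hval : ((v - μ * ((1 : ℝ) : ℂ) ^ 2) / μ) = (((‖v‖ / s - 1) : ℝ) : ℂ) := by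
    have hv2 : v = (‖v‖ : ℂ) * u := by
      rw [hu]
      field_simp
    have hsc : (s : ℂ) ≠ 0 := by exact_mod_cast hs0.ne'
    rw [hμdef]
    conv_lhs => rw [hv2]
    push_cast
    field_simp
  rw [← hv, hval, Complex.ofReal_re] at hkey
  have h1 : 1 < ‖v‖ / s := (one_lt_div hs0).mpr hs.2
  linarith

/-- The case `M = 0`: the sublevel set is a single point and `A` is scalar. -/
lemma numerical_radius_zero (A : H →L[ℂ] H) (p : ℂ[X])
    (hW : ∀ z ∈ numericalRange A, ‖p.eval z‖ ≤ 0)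
    (hconv : Convex ℝ {z : ℂ | ‖p.eval z‖ ≤ 0}) (hdeg : 0 < p.natDegree)
    (x : H) (hx : ‖x‖ = 1) : ‖(inner ℂ x ((aeval A p) x) : ℂ)‖ ≤ 0 := by
  classical
  have hp0 : p ≠ 0 := by
    rintro rfl
    simp at hdeg
  -- zeros of `p` form a convex finite set, hence a subsingleton
  have hsub : ∀ a b : ℂ, p.eval a = 0 → p.eval b = 0 → a = b := by
    intro a b ha hb
    by_contra hab
    have hfin : Set.Finite {z : ℂ | p.eval z = 0} := by
      refine (p.roots.toFinset.finite_toSet).subset ?_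
      intro z hz
      exact Multiset.mem_toFinset.mpr ((mem_roots hp0).mpr hz)
    have hinj : Set.InjOn (fun t : ℝ => (1 - t) • a + t • b) (Set.Icc 0 1) := by
      intro t _ t' _ h
      simp only [Complex.real_smul] at h
      push_cast at h
      have h2 : ((t : ℂ) - t') * (b - a) = 0 := by
        linear_combination h
      rcases mul_eq_zero.mp h2 with h3 | h3
      · exact_mod_cast sub_eq_zero.mp h3
      · exact absurd (sub_eq_zero.mp h3).symm hab
    have hmaps : Set.MapsTo (fun t : ℝ => (1 - t) • a + t • b) (Set.Icc 0 1)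
        {z : ℂ | p.eval z = 0} := by
      intro t ht
      have := hconv (show a ∈ {z : ℂ | ‖p.eval z‖ ≤ 0} by simp [ha])
        (show b ∈ {z : ℂ | ‖p.eval z‖ ≤ 0} by simp [hb])
        (show 0 ≤ 1 - t by linarith [ht.2]) ht.1 (by ring)
      simpa using this
    exact Set.infinite_of_injOn_mapsTo hinj hmaps (Set.Icc_infinite zero_lt_one) hfin
  set ρ : ℂ := inner ℂ x (A x) with hρ
  have hρW : ρ ∈ numericalRange A := ⟨x, hx, rfl⟩
  have hρ0 : p.eval ρ = 0 := by simpa using hW ρ hρW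
  -- `A` is the scalar `ρ`
  have hscal : ∀ y : H, (inner ℂ y (A y) : ℂ) = ρ * (‖y‖ : ℂ) ^ 2 := by
    intro y
    by_cases hy : y = 0
    · simp [hy]
    obtain ⟨a, ha, hae⟩ := inner_self_mem A hy
    have ha0 : p.eval a = 0 := by simpa using hW a ha
    rw [hae, hsub a ρ ha0 hρ0]
    ring
  have hA : A = algebraMap ℂ (H →L[ℂ] H) ρ := by
    have hlin : ((A - algebraMap ℂ (H →L[ℂ] H) ρ : H →L[ℂ] H) : H →ₗ[ℂ] H) = 0 := by
      rw [← inner_map_self_eq_zero]
      intro y
      have h1 : (inner ℂ y (A y) : ℂ) = ρ * (‖y‖ : ℂ) ^ 2 := hscal y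
      have h2 : (inner ℂ y ((A - algebraMap ℂ (H →L[ℂ] H) ρ) y) : ℂ) = 0 := by
        simp only [sub_apply, inner_sub_right, h1,
          Algebra.algebraMap_eq_smul_one, smul_apply,
          one_apply_eq_self, inner_smul_right, inner_self_eq_norm_sq_to_K]
        simp
      rw [← inner_conj_symm]
      simp only [ContinuousLinearMap.coe_coe]
      rw [h2, map_zero]
    have hlin2 : (A - algebraMap ℂ (H →L[ℂ] H) ρ : H →L[ℂ] H) = 0 := by
      ext y
      have := congrArg (fun f : H →ₗ[ℂ] H => f y) hlin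
      simpa using this
    exact sub_eq_zero.mp hlin2
  have hzero : aeval A p = 0 := by
    rw [hA, aeval_algebraMap_apply]
    have : aeval ρ p = 0 := by
      simpa [coe_aeval_eq_eval] using hρ0
    rw [this, map_zero]
  rw [hzero]
  simp

/-- The numerical radius bounds the operator norm up to the factor `2`. -/
lemma opNorm_le_of_numerical_radius (T : H →L[ℂ] H) (M : ℝ) (hM : 0 ≤ M)
    (h : ∀ x : H, ‖x‖ = 1 → ‖(inner ℂ x (T x) : ℂ)‖ ≤ M) : ‖T‖ ≤ 2 * M := by
  have hscale : ∀ x : H, ‖(inner ℂ (T x) x : ℂ)‖ ≤ M * ‖x‖ ^ 2 := by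
    intro x
    by_cases hx : x = 0
    · simp [hx]
    have hnx : 0 < ‖x‖ := norm_pos_iff.mpr hx
    have hnc : (‖x‖ : ℂ) ≠ 0 := by exact_mod_cast hnx.ne'
    have hunit : ‖((‖x‖ : ℂ)⁻¹) • x‖ = 1 := by
      rw [norm_smul, norm_inv, Complex.norm_real, norm_norm]
      exact inv_mul_cancel₀ hnx.ne'
    have h1 := h _ hunit
    have h2 : (inner ℂ (((‖x‖ : ℂ)⁻¹) • x) (T (((‖x‖ : ℂ)⁻¹) • x)) : ℂ)
        = ((‖x‖ : ℂ)⁻¹) ^ 2 * inner ℂ x (T x) := by
      rw [map_smul, inner_smul_left, inner_smul_right]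
      simp only [map_inv₀, Complex.conj_ofReal]
      ring
    rw [h2, norm_mul, norm_pow, norm_inv, Complex.norm_real, norm_norm] at h1
    have h3 : ‖(inner ℂ x (T x) : ℂ)‖ ≤ M * ‖x‖ ^ 2 := by
      have hpos : 0 < ‖x‖ ^ 2 := by positivity
      have : (‖x‖⁻¹) ^ 2 * ‖(inner ℂ x (T x) : ℂ)‖ * ‖x‖ ^ 2 ≤ M * ‖x‖ ^ 2 :=
        mul_le_mul_of_nonneg_right h1 hpos.le
      calc ‖(inner ℂ x (T x) : ℂ)‖
          = (‖x‖⁻¹) ^ 2 * ‖(inner ℂ x (T x) : ℂ)‖ * ‖x‖ ^ 2 := by field_simp
        _ ≤ _ := this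
    rw [← inner_conj_symm, RCLike.norm_conj]
    exact h3
  have hpol : ∀ x y : H, ‖(inner ℂ (T x) y : ℂ)‖ ≤ M * (‖x‖ ^ 2 + ‖y‖ ^ 2) := by
    intro x y
    have hP := inner_map_polarization' (T : H →ₗ[ℂ] H) x y
    simp only [ContinuousLinearMap.coe_coe] at hP
    rw [hP, norm_div]
    have h4 : ‖(4 : ℂ)‖ = 4 := by simp
    rw [h4, div_le_iff₀ (by norm_num : (0 : ℝ) < 4)]
    have hIy : ‖Complex.I • y‖ = ‖y‖ := by simp [norm_smul]
    have par1 := parallelogram_law_with_norm ℂ x y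
    have par2 := parallelogram_law_with_norm ℂ x (Complex.I • y)
    rw [hIy] at par2
    have b1 := hscale (x + y)
    have b2 := hscale (x - y)
    have b3 := hscale (x + Complex.I • y)
    have b4 := hscale (x - Complex.I • y)
    have ht : ‖(inner ℂ (T (x + y)) (x + y) : ℂ) - inner ℂ (T (x - y)) (x - y)
          - Complex.I * inner ℂ (T (x + Complex.I • y)) (x + Complex.I • y)
          + Complex.I * inner ℂ (T (x - Complex.I • y)) (x - Complex.I • y)‖
        ≤ ‖(inner ℂ (T (x + y)) (x + y) : ℂ)‖ + ‖(inner ℂ (T (x - y)) (x - y) : ℂ)‖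
          + ‖(inner ℂ (T (x + Complex.I • y)) (x + Complex.I • y) : ℂ)‖
          + ‖(inner ℂ (T (x - Complex.I • y)) (x - Complex.I • y) : ℂ)‖ := by
      refine (norm_add_le _ _).trans ?_
      refine add_le_add ((norm_sub_le _ _).trans (add_le_add (norm_sub_le _ _) ?_)) ?_
      · simp
      · simp
    nlinarith [ht, b1, b2, b3, b4, par1, par2]
  apply ContinuousLinearMap.opNorm_le_bound _ (by positivity)
  intro y
  by_cases hy : T y = 0
  · rw [hy, norm_zero]
    positivity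
  by_cases hy0 : y = 0
  · simp [hy0]
  have hTn : 0 < ‖T y‖ := norm_pos_iff.mpr hy
  have hyn : 0 < ‖y‖ := norm_pos_iff.mpr hy0
  set c : ℂ := ((‖y‖ / ‖T y‖ : ℝ) : ℂ) with hc
  have hcn : ‖c • T y‖ = ‖y‖ := by
    rw [norm_smul, hc, Complex.norm_real, Real.norm_of_nonneg (by positivity)]
    field_simp
  have hb := hpol y (c • T y)
  rw [hcn, inner_smul_right, inner_self_eq_norm_sq_to_K, norm_mul, norm_pow] at hb
  simp only [hc, Complex.norm_real, Real.norm_of_nonneg (by positivity : 0 ≤ ‖y‖ / ‖T y‖),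
    Complex.coe_algebraMap, norm_norm] at hb
  have hb2 : ‖y‖ * ‖T y‖ ≤ M * (‖y‖ ^ 2 + ‖y‖ ^ 2) := by
    calc ‖y‖ * ‖T y‖ = ‖y‖ / ‖T y‖ * ‖T y‖ ^ 2 := by field_simp
      _ ≤ _ := hb
  have : ‖y‖ * ‖T y‖ ≤ ‖y‖ * (2 * M * ‖y‖) := by
    calc _ ≤ _ := hb2
      _ = _ := by ring
  exact le_of_mul_le_mul_left this hyn

end Operators

/-- **Crouzeix's inequality for convex lemniscates.**
Let `A` be a bounded operator on a complex inner product space, `p` a complex polynomial and `M ≥ 0`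
an upper bound of `|p|` on the numerical range of `A` such that the sublevel set `{z : |p z| ≤ M}` is
convex. Then the numerical radius of `p(A)` is at most `M` and `‖p(A)‖ ≤ 2 M`. -/
theorem result {H : Type*} [NormedAddCommGroup H] [InnerProductSpace ℂ H]
    (A : H →L[ℂ] H) (p : ℂ[X]) (M : ℝ) (hM : 0 ≤ M)
    (hW : ∀ z ∈ numericalRange A, ‖p.eval z‖ ≤ M)
    (hconv : Convex ℝ {z : ℂ | ‖p.eval z‖ ≤ M}) :
    (∀ x : H, ‖x‖ = 1 → ‖(inner ℂ x ((aeval A p) x) : ℂ)‖ ≤ M) ∧ ‖aeval A p‖ ≤ 2 * M := by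
  have hrad : ∀ x : H, ‖x‖ = 1 → ‖(inner ℂ x ((aeval A p) x) : ℂ)‖ ≤ M := by
    intro x hx
    by_cases hdeg : 0 < p.natDegree
    · rcases hM.eq_or_lt with h0 | hpos
      · subst h0
        exact numerical_radius_zero A p hW hconv hdeg x hx
      · exact numerical_radius_pos A p M hpos hW hconv hdeg x hx
    · have hc : p = C (p.coeff 0) := eq_C_of_natDegree_eq_zero (by omega)
      have h1 := hW _ ⟨x, hx, rfl⟩
      rw [hc, eval_C] at h1
      rw [hc, aeval_C]
      simp only [Algebra.algebraMap_eq_smul_one, smul_apply,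
        one_apply_eq_self, inner_smul_right, inner_self_eq_norm_sq_to_K, hx]
      simpa using h1
  exact ⟨hrad, opNorm_le_of_numerical_radius _ M hM hrad⟩

end Vale.Agent.Results.P123.ConvexLemniscate
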