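import Vale.Agent.helper3.Core

open Polynomial ContinuousLinearMap

namespace Vale.Agent.Results.P123.QuadraticCrouzeix

open Vale.Agent.helper3.Ridge

variable {H : Type*} [NormedAddCommGroup H] [InnerProductSpace ℂ H] [CompleteSpace H]

lemma quad_expand (p : ℂ[X]) (hp : p.natDegree ≤ 2) :
    p = C (p.coeff 2) * X ^ 2 + C (p.coeff 1) * X + C (p.coeff 0) := by
  ext n
  rcases n with _ | _ | _ | n
  · simp
  · simp
  · simp
  · have : p.coeff (n + 3) = 0 := coeff_eq_zero_of_natDegree_lt (by omega)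
    have hX : (X : ℂ[X]).coeff (n + 3) = 0 := by
      rw [coeff_X]; simp
    simp [this]

omit [CompleteSpace H] in
/-- The case of a convex sublevel set. -/
lemma of_convex (A : H →L[ℂ] H) (p : ℂ[X]) (M : ℝ) (hM : 0 ≤ M)
    (hW : ∀ x : H, ‖x‖ = 1 → ‖p.eval (inner ℂ x (A x))‖ ≤ M)
    (hconv : Convex ℝ {z : ℂ | ‖p.eval z‖ ≤ M}) : ‖aeval A p‖ ≤ 2 * M :=
  (Vale.Agent.Results.P123.ConvexLemniscate.result A p M hM
    (by rintro z ⟨x, hx, rfl⟩; exact hW x hx) hconv).2

/-- **Crouzeix's inequality with constant `2` for polynomials of degree at most two.** -/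
theorem result (A : H →L[ℂ] H) (p : ℂ[X]) (hp : p.natDegree ≤ 2) (M : ℝ) (hM : 0 ≤ M)
    (hW : ∀ x : H, ‖x‖ = 1 → ‖p.eval (inner ℂ x (A x))‖ ≤ M) :
    ‖aeval A p‖ ≤ 2 * M := by
  have hexp := quad_expand p hp
  set a := p.coeff 2 with ha
  set b := p.coeff 1 with hb
  set d := p.coeff 0 with hd
  have hev : ∀ z : ℂ, p.eval z = a * z ^ 2 + b * z + d := by
    intro z
    rw [hexp]; simp
  by_cases ha0 : a = 0
  · -- affine
    refine of_convex A p M hM hW ?_
    intro z hz w hw t1 t2 ht1 ht2 hsum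
    simp only [Set.mem_ofPred_eq, hev, ha0, zero_mul, zero_add] at hz hw ⊢
    have e : b * (t1 • z + t2 • w) + d = t1 • (b * z + d) + t2 • (b * w + d) := by
      have hd' : d = t1 • d + t2 • d := by rw [← add_smul, hsum, one_smul]
      simp only [Complex.real_smul] at hd' ⊢
      linear_combination hd'
    rw [e]
    calc ‖t1 • (b * z + d) + t2 • (b * w + d)‖ ≤ t1 * ‖b * z + d‖ + t2 * ‖b * w + d‖ := by
          refine (norm_add_le _ _).trans ?_
          rw [norm_smul, norm_smul, Real.norm_of_nonneg ht1, Real.norm_of_nonneg ht2]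
      _ ≤ t1 * M + t2 * M := by gcongr
      _ = M := by rw [← add_mul, hsum, one_mul]
  set h : ℂ := b / (2 * a) with hh
  set κ : ℂ := h ^ 2 - d / a with hκ
  have hfac : ∀ z : ℂ, p.eval z = a * ((z + h) ^ 2 - κ) := by
    intro z
    rw [hev, hκ, hh]
    field_simp
    ring
  by_cases hκ0 : κ = 0
  · -- a square: the sublevel sets are discs
    refine of_convex A p M hM hW ?_
    have hset : {z : ℂ | ‖p.eval z‖ ≤ M} = Metric.closedBall (-h) (Real.sqrt (M / ‖a‖)) := by
      ext z
      have hapos : 0 < ‖a‖ := norm_pos_iff.mpr ha0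
      simp only [Set.mem_ofPred_eq, Metric.mem_closedBall, dist_eq_norm, sub_neg_eq_add]
      rw [hfac, hκ0, sub_zero, norm_mul, norm_pow, Real.le_sqrt (norm_nonneg _) (by positivity), le_div_iff₀ hapos]
      constructor
      · intro h1; linarith
      · intro h1; linarith
    rw [hset]
    exact convex_closedBall _ _
  · -- the main case
    obtain ⟨μ, hμ⟩ : ∃ μ : ℂ, μ ^ 2 = κ := IsAlgClosed.exists_pow_nat_eq κ (by norm_num)
    have hμ0 : μ ≠ 0 := by
      rintro rfl
      apply hκ0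
      rw [← hμ]
      norm_num
    have hapos : 0 < ‖a‖ := norm_pos_iff.mpr ha0
    have hμpos : 0 < ‖μ‖ := norm_pos_iff.mpr hμ0
    set B : H →L[ℂ] H := μ⁻¹ • (A + h • (1 : H →L[ℂ] H)) with hB
    set M' : ℝ := M / (‖a‖ * ‖μ‖ ^ 2) with hM'
    have hM'0 : 0 ≤ M' := by positivity
    have hinner : ∀ x : H, ‖x‖ = 1 →
        (inner ℂ x (B x)) ^ 2 - 1 = (p.eval (inner ℂ x (A x))) / (a * μ ^ 2) := by
      intro x hx
      have e1 : inner ℂ x (B x) = μ⁻¹ * (inner ℂ x (A x) + h) := by
        simp only [hB, smul_apply, add_apply, inner_smul_right, inner_add_right]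
        simp [hx]
      rw [e1, hfac, ← hμ]
      field_simp
    have hBbound : ∀ x : H, ‖x‖ = 1 → ‖(inner ℂ x (B x)) ^ 2 - 1‖ ≤ M' := by
      intro x hx
      rw [hinner x hx, norm_div, norm_mul, norm_pow, hM']
      exact div_le_div_of_nonneg_right (hW x hx) (by positivity)
    have hcore := core B M' hM'0 hBbound
    have hop : aeval A p = (a * μ ^ 2) • (B ^ 2 - 1) := by
      have h2 : B ^ 2 = (μ⁻¹ ^ 2) • (A + h • (1 : H →L[ℂ] H)) ^ 2 := by
        rw [hB, _root_.smul_pow]
      rw [h2]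
      have h3 : aeval A p = a • (A + h • (1 : H →L[ℂ] H)) ^ 2 - (a * μ ^ 2) • (1 : H →L[ℂ] H) := by
        have h4 : aeval A p = a • A ^ 2 + b • A + d • (1 : H →L[ℂ] H) := by
          conv_lhs => rw [hexp]
          simp only [map_add, map_mul, aeval_C, map_pow, aeval_X, Algebra.algebraMap_eq_smul_one,
            smul_mul_assoc, one_mul]
        rw [h4, hμ, hκ, hh]
        have h5 : (A + (b / (2 * a)) • (1 : H →L[ℂ] H)) ^ 2
            = A ^ 2 + (2 * (b / (2 * a))) • A + ((b / (2 * a)) ^ 2) • (1 : H →L[ℂ] H) := by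
          simp only [pow_two, add_mul, mul_add, smul_mul_assoc, mul_smul_comm, one_mul, mul_one,
            smul_add, smul_smul]
          module
        rw [h5]
        simp only [smul_add, smul_smul]
        have e1 : a * (2 * (b / (2 * a))) = b := by field_simp
        have e2 : a * ((b / (2 * a)) ^ 2 - d / a) = a * (b / (2 * a)) ^ 2 - d := by
          field_simp
        rw [e1, e2]
        module
      rw [h3]
      simp only [smul_sub, smul_smul]
      have e : a * μ ^ 2 * μ⁻¹ ^ 2 = a := by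
        field_simp
      rw [e]
    rw [hop, norm_smul, norm_mul, norm_pow]
    have hpos : 0 < ‖a‖ * ‖μ‖ ^ 2 := by positivity
    calc ‖a‖ * ‖μ‖ ^ 2 * ‖B ^ 2 - 1‖ ≤ ‖a‖ * ‖μ‖ ^ 2 * (2 * M') :=
          mul_le_mul_of_nonneg_left hcore hpos.le
      _ = 2 * M := by
          rw [hM']
          field_simp

end Vale.Agent.Results.P123.QuadraticCrouzeix
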