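import Vale.Agent.Results.P123.UniversalBound
import Vale.Agent.Results.P123.QuadraticCrouzeix
import Vale.Agent.Results.P123.ConvexLemniscate

open Polynomial

/-- Let `A` be a bounded operator on a complex Hilbert space, `P` a complex polynomial and `M ≥ 0`
an upper bound of `|P|` on the numerical range of `A`. Then `‖P(A)‖ ≤ 2.33 M`. If moreover `P` has
degree at most two, or the sublevel set `{z : |P z| ≤ M}` is convex, then `‖P(A)‖ ≤ 2 M`.
(Recall that `inner ℂ x y` is conjugate linear in `x`.) -/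
theorem Vale.Agent.Results.P123.Combined.result
    {H : Type*} [NormedAddCommGroup H] [InnerProductSpace ℂ H] [CompleteSpace H]
    (A : H →L[ℂ] H) (P : ℂ[X]) (M : ℝ) (hM : 0 ≤ M)
    (hW : ∀ x : H, ‖x‖ = 1 → ‖P.eval (inner ℂ x (A x))‖ ≤ M) :
    ‖aeval A P‖ ≤ (233 / 100 : ℝ) * M ∧
      (P.natDegree ≤ 2 → ‖aeval A P‖ ≤ 2 * M) ∧
      (Convex ℝ {z : ℂ | ‖P.eval z‖ ≤ M} → ‖aeval A P‖ ≤ 2 * M) :=
  ⟨Vale.Agent.Results.P123.UniversalBound.result A P M hM hW,
    fun hd => Vale.Agent.Results.P123.QuadraticCrouzeix.result A P hd M hM hW,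
    fun hc => (Vale.Agent.Results.P123.ConvexLemniscate.result A P M hM
      (by rintro z ⟨x, hx, rfl⟩; exact hW x hx) hc).2⟩
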