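import Vale.Agent.helper3.CP.Support

/-!
# A universal bound below `1 + √2` for the Crouzeix constant

For every complex Hilbert space `H`, every bounded operator `A` on `H` and every polynomial `P`,
`‖P(A)‖ ≤ 2.33 · sup {|P(⟪x, A x⟫)| : ‖x‖ = 1}`.

The proof is a refinement of the Crouzeix-Palencia argument: besides the estimate
`‖T u + (T (conj u))^*‖ ≤ 2‖u‖` for the double layer potential it uses its complete positivity, the
positivity of the Neumann kernel on the boundary of a smooth convex domain and the near-extremal
structure of the functional calculus.  See `Vale.Agent.helper3.CP`.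
-/

open Polynomial

/-- **The Crouzeix constant is at most `2.33`.**  If `|P(z)| ≤ M` on the numerical range of `A`,
then `‖P(A)‖ ≤ 2.33 M`.  (Recall that `inner ℂ x y` is conjugate linear in `x`.) -/
theorem Vale.Agent.Results.P123.UniversalBound.result
    {H : Type*} [NormedAddCommGroup H] [InnerProductSpace ℂ H] [CompleteSpace H]
    (A : H →L[ℂ] H) (P : ℂ[X]) (M : ℝ) (hM : 0 ≤ M)
    (hW : ∀ x : H, ‖x‖ = 1 → ‖P.eval (inner ℂ x (A x))‖ ≤ M) :
    ‖aeval A P‖ ≤ (233 / 100 : ℝ) * M :=
  Vale.Agent.helper3.CP.main_bound A P M hM hW
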